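import Vale.Agent.P283R.Wr.St
import Vale.Agent.P283R.To.Bas

/-!
# P283R, block WD, any rank: the invariant form
-/

open Set
open Vale.Agent.P285N.Brep (jac Fr)

noncomputable section

namespace Vale.Agent.P283R.Wr

variable {ρ : ℕ}

open Vale.Agent.P287D Vale.Agent.P283M Vale.Agent.P283R.To

namespace Z39

variable {K : Type} [Field K] [Algebra ℂ K] {s : K} {y : Fin ρ → K}

/-- the order of the invariant form -/
theorem cz_eq (s : K) (y : Fin ρ → K) (P : Pl K) :
    (cz s y P : ℝ) = kap (fr s y) P - ∑ j, (P.ord (y j) : ℝ) := by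
  obtain ⟨z, hz⟩ := Cb.kap_int (fr s y) P
  simp [cz, hz]

theorem la_eq (s : K) (y : Fin ρ → K) (P : Pl K) :
    la (fr s y) P = cz s y P + 1 - P.ord s := by
  rw [cz_eq, la, Fin.sum_univ_succ]
  simp only [fr, Fin.cons_zero, Fin.cons_succ]
  ring

/-- translation of the first coordinate -/
theorem shift (h : D.Rat (fr s y)) (p : ℂ) :
    AlgebraicIndependent ℂ (fr (s - algebraMap ℂ K p) y) ∧
      kap (fr (s - algebraMap ℂ K p) y) = kap (fr s y) := by
  obtain ⟨D, hD⟩ := Cb.fr_of h.ff h.ind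
  have e : jac D (fr (s - algebraMap ℂ K p) y) = 1 := by
    rw [← Cb.jac_self hD, jac, jac]
    congr 1
    ext i j
    refine Fin.cases ?_ (fun j => ?_) j <;> simp [fr]
  have n : jac D (fr (s - algebraMap ℂ K p) y) ≠ 0 := e ▸ one_ne_zero
  exact ⟨(Cb.jac_ne_iff hD _).1 n, by rw [Cb.kap_chg hD n, e, dv_one, add_zero]⟩

theorem mu_le (h : D.Rat (fr s y)) (P : Pl K) (p : ℂ) : mu s P (some p) - 1 ≤ cz s y P := by
  obtain ⟨i, e⟩ := shift h p
  have k := la_nonneg h.ff i P
  rw [la_eq, cz_eq, e, ← cz_eq] at k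
  have : ((mu s P (some p) - 1 : ℤ) : ℝ) ≤ cz s y P := by
    push_cast
    simp only [mu]
    linarith
  exact_mod_cast this

end Z39

open Z39

/-- **CZ** -/
theorem cz_row : CZ ρ := fun K _ _ s y h => by
  have y0 : ∀ j, y j ≠ 0 := fun j => h.ind.ne_zero j.succ
  refine ⟨mu_le h, fun P => ?_, ?_, fun v hv => ?_⟩
  · have := mu_le h P 0
    simp only [mu, map_zero, sub_zero] at this ⊢
    omega
  · obtain ⟨f, f0, e⟩ := Cb.cn_kap h.ff h.ind
    have p0 : ∏ j, y j ≠ 0 := Finset.prod_ne_zero_iff.2 fun j _ => y0 j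
    refine ⟨f * ∏ j, y j, mul_ne_zero f0 p0, fun P => ?_⟩
    have := congrFun (dv_mul f0 p0) P
    rw [dv_prod _ fun j _ => y0 j] at this
    simp only [Pi.add_apply, Finset.sum_apply, dv_apply] at this
    rw [e, cz_eq, this, Pi.add_apply, dv_apply]
    ring
  · obtain ⟨Q, e, e0, a, b⟩ := mon' (ρ + 1) K (fr s y) (Fin.cons 0 v) h fun c => hv (funext fun j => by
      simpa using congrFun c j.succ)
    have s0 : Q.ord s = 0 := by
      have := a 0
      simp only [fr, Fin.cons_zero] at this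
      exact (mul_eq_zero.1 this.symm).resolve_left (by exact_mod_cast e0.ne')
    have c : cz s y Q + 1 ≤ 0 := by
      rw [la_eq, s0] at b
      have : ((cz s y Q + 1 : ℤ) : ℝ) ≤ 0 := by
        push_cast at b ⊢
        linarith
      exact_mod_cast this
    refine ⟨Q, e, e0, fun j => by simpa [fr] using a j.succ, fun r => ?_, c⟩
    cases r with
    | none => simp [At, mu, s0]
    | some p =>
      have := mu_le h Q p
      simp only [At]
      omega

end Vale.Agent.P283R.Wr
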