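import Vale.Agent.P283R.Wr.St
import Vale.Agent.P283R.Br.Glue
import Vale.Agent.P283M.Br.Crv

/-!
# P283R, block WD, any rank: the prime divisors form a family
-/

open Set CategoryTheory AlgebraicGeometry

noncomputable section

namespace Vale.Agent.P283R.Wr

variable {ρ : ℕ}

open Vale.Agent.P287D Vale.Agent.P283M Vale.Agent.P283R.To Vale.Agent.P297Z
open Vale.Agent.P289 (Pt DForm dimension)
open Vale.Agent.P283M.Stm Vale.Agent.P283M.Stm.Var Vale.Agent.P283M.Br Vale.Agent.P283R.Gl

namespace F65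

variable {X : Var} {n : ℕ}

theorem pq_inj : Function.Injective (pq (X := X)) := fun E E' e =>
  Subtype.ext (Crv.dom_unique (dom_S (pq_is E).dom) (dom_S (e ▸ (pq_is E').dom)))

/-- the canonical b-divisor has a finite trace -/
theorem fin_cn (hK : FF X.K (n + 1)) :
    {E : X.PrimeDiv | cn X.K (n + 1) (pq E) ≠ 0}.Finite := by
  obtain ⟨y, hy, -⟩ := id hK
  obtain ⟨D, hD⟩ := Cb.fr_of hK hy
  let L : Derivation ℂ X.K X.K →ₗ[X.K] Fin (n + 1) → X.K :=
    { toFun := fun v l => v (y l), map_add' := fun _ _ => rfl, map_smul' := fun _ _ => rfl }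
  obtain ⟨h, -, fr⟩ := frm X (n + 1) hK ((Pi.basisFun X.K (Fin (n + 1))).det.compLinearMap L)
    fun z => by
      have k : (Pi.basisFun X.K (Fin (n + 1))).det (fun i => L (D i)) = 0 :=
        congrArg (fun w => w D) z
      rw [Pi.basisFun_det_apply] at k
      exact one_ne_zero ((Cb.jac_self hD).symm.trans k)
  refine ((P283R.Br.form_fin hK fr).union (fin X h)).subset fun E hE => by_contra fun c => hE ?_
  rw [mem_union, not_or, mem_ofPred, mem_ofPred, not_not, not_not, pq_ord] at c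
  have := fr X _ E (pq E) (pq_is E) (pq_ord E)
  rw [c.1, c.2] at this
  simpa using this.symm

theorem mem_hm {K : Type} [Field K] [Algebra ℂ K] (s : K) (y : Fin ρ → K) (j : Fin ρ) :
    y j ∈ Hm s y (Pi.single j 1) :=
  ⟨1, one_mem _, by
    rw [one_mul, mon, Finset.prod_eq_single j (fun i _ z => by rw [Pi.single_eq_of_ne z, zpow_zero])
      fun z => (z (Finset.mem_univ _)).elim, Pi.single_eq_same, zpow_one]⟩

end F65

open F65

/-- **FMR** -/
theorem fmr : FMR ρ := fun cZ kt rat inv lau mis X W s y x h hx => by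
  classical
  obtain ⟨r, tp⟩ := rat X W s y x h hx
  refine ⟨r, fun a => (fin X a).subset fun E c => by rw [mem_ofPred, pq_ord]; exact c.2, ?_,
    inv X W s y x h hx, lau X W s y x h hx, fun c hc => ?_, fun E a b => ?_, mis X W s y x h hx⟩
  · obtain ⟨-, -, ⟨g, -, hg⟩, -⟩ := cZ X.K s y r
    refine ((fin_cn r.ff).union (fin X g)).subset fun E c => by_contra fun k => c.2 ?_
    rw [mem_union, not_or, mem_ofPred, mem_ofPred, not_not, not_not, pq_ord] at k
    have := hg (pq E)
    rw [k.1, k.2] at this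
    exact_mod_cast (by simpa using this.symm : (cz s y (pq E) : ℝ) = 0)
  · have fT : (pq '' {E : X.PrimeDiv | c E ≠ 0 ∧ E.1 ∈ W ∧ Tv s y (pq E)}).Finite :=
      (hc.subset fun _ a => a.1).image _
    obtain ⟨G, G0, hG⟩ := Gl.eqn r (Function.extend pq c 0) fT.toFinset fun P hP => by
      obtain ⟨E, a, rfl⟩ := fT.mem_toFinset.1 hP
      exact tp E a.2.1 a.2.2
    refine ⟨G, G0, fun E a b => ?_⟩
    by_cases q : pq E ∈ fT.toFinset
    · rw [(hG _ (tp E a b)).1 q, pq_inj.extend_apply]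
    · rw [(hG _ (tp E a b)).2 q]
      exact (by_contra fun z => q (fT.mem_toFinset.2 ⟨E, ⟨z, a, b⟩, rfl⟩) : c E = 0).symm
  · have z : ∀ j, (pq E).ord (y j) = 0 := fun j =>
      b _ _ (mem_hm s y j) (r.ind.ne_zero j.succ)
    rw [cz, kt (ρ + 1) X.K _ _ r (tp E a b)]
    simp [z]

end Vale.Agent.P283R.Wr
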