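import Vale.Agent.P283R.Wr.St
import Vale.Agent.P283R.Cx.Sc
import Vale.Agent.P283R.To.Sc1

/-!
# P283R, block WD, any rank: the inequality
-/

open Set CategoryTheory AlgebraicGeometry

noncomputable section

namespace Vale.Agent.P283R.Wr

variable {ρ : ℕ}

open Vale.Agent.P287D Vale.Agent.P283M Vale.Agent.P283M.Br Vale.Agent.P283R.Gl

namespace H4

theorem pq_inj {X : Stm.Var} : Function.Injective (pq (X := X)) := fun E E' e =>
  Subtype.ext (Crv.dom_unique (dom_S (pq_is E).dom) (dom_S (e ▸ (pq_is E').dom)))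

theorem fs_ext {ι κ : Type} {p : ι → κ} (h : Function.Injective p) (ξ : ι → ℝ) (F : κ → ℝ) :
    ∑ᶠ R, Function.extend p ξ 0 R * F R = ∑ᶠ E, ξ E * F (p E) := by
  have k : Function.support (fun R => Function.extend p ξ 0 R * F R) ⊆ range p := fun R r =>
    by_contra fun c => left_ne_zero_of_mul r (Function.extend_apply' _ _ _ c)
  rw [← indicator_eq_self.2 k, ← finsum_mem_def, finsum_mem_range h]
  simp only [h.extend_apply]

end H4

open H4

/-- **HWR** -/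
theorem hwr : HWR ρ := by
  classical
  intro sums cz' conv X Z f ω B z ε q V s g y κ hK hω hB hf hF nef hz hV zV q1 fm g0 hκ κ0 Q ξ ξ0
    hξ hQ
  obtain ⟨u, bs⟩ := Sch.basV hf hz hV zV
  obtain ⟨Λ, Γ, Γ', a, on, lc, cf, nf, -⟩ := Cox.dataW (n := ρ) hK hω hB hf hF bs
  obtain ⟨-, -, ⟨h, -, ec⟩, -⟩ := cz' _ s y fm.rat
  have q0 : (0 : ℝ) < q := Nat.cast_pos.2 q1
  have oo : ∀ E : X.PrimeDiv, E.1 ∈ f ⁻¹ᵁ V → Ov u (pq E) ∧ On ρ Λ (pq E) := fun E c =>
    ⟨fun b hb => ((pq_is E).dom b (bs.reg b hb _ c)).1, (on _ _ c (pq_is E).dom).2 E.2⟩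
  have fi : ∀ b : X.K, (Function.support fun E => ξ E * ((pq E).ord b : ℝ)).Finite := fun b =>
    (fm.fin b).subset fun E c => ⟨(hξ E (left_ne_zero_of_mul c)).1,
      Int.cast_ne_zero.1 (right_ne_zero_of_mul c)⟩
  have eψ : ∀ E : X.PrimeDiv, E.1 ∈ f ⁻¹ᵁ V →
      (dv h + (q : ℝ)⁻¹ • dv g - Γ) (pq E) = -(q : ℝ)⁻¹ * κ E := fun E c => by
    have x := cf _ E c (pq_is E).dom
    have x' : (κ E : ℝ) = q * cz s y (pq E) + q * (B E : ℝ) - (pq E).ord g := by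
      exact_mod_cast congrArg (Rat.cast : ℚ → ℝ) (hκ E c)
    have x'' := ec (pq E)
    simp only [dsc, Pi.sub_apply, Pi.add_apply, Pi.smul_apply, smul_eq_mul, dv_apply] at x ⊢
    rw [x', show Γ (pq E) = cz s y (pq E) + (pq E).ord h + (B E : ℝ) by linarith]
    field_simp
    ring
  obtain ⟨o, k⟩ := conv ρ X.K u Λ Γ Γ' (fun R => ∃ E, (E.1 ∈ f ⁻¹ᵁ V ∧ Tv s y (pq E)) ∧ pq E = R)
    (Function.extend pq ξ 0) Q a (by rintro _ ⟨E, c, rfl⟩; exact oo E c.1)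
    (fun R => by
      by_cases c : ∃ E, pq E = R
      · obtain ⟨E, rfl⟩ := c
        rw [pq_inj.extend_apply]
        exact ξ0 E
      · rw [Function.extend_apply' _ _ _ c])
    (fun R r => by
      obtain ⟨E, rfl⟩ : ∃ E, pq E = R := by_contra fun c => r (Function.extend_apply' _ _ _ c)
      rw [pq_inj.extend_apply] at r
      exact oo E (hξ E r).1)
    (fun c hc => by
      obtain ⟨φ, φ0, e⟩ := fm.eqn (fun E => if E.1 ∈ f ⁻¹ᵁ V ∧ Tv s y (pq E) then c (pq E) else 0)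
        ((hc.preimage pq_inj.injOn).subset fun E r => by
          have m : E.1 ∈ f ⁻¹ᵁ V ∧ Tv s y (pq E) := by_contra fun m => r (if_neg m)
          exact ⟨⟨E, m, rfl⟩, (if_pos m).symm.trans_ne r⟩)
      exact ⟨φ, φ0, by rintro _ ⟨E, m, rfl⟩; exact (e E m.1 m.2).trans (if_pos m)⟩)
    fun b b0 hb => by
      obtain ⟨G, hG, rfl⟩ := fm.lau b b0 fun E c t => hb _ ⟨E, ⟨c, t⟩, rfl⟩
      obtain ⟨v, v0, e⟩ := (sums _ s y fm.rat).2.1 G Q b0
      rw [fs_ext pq_inj]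
      refine le_trans (finsum_le_finsum' (fi _) (fi (G v)) fun E => ?_)
        ((hQ v _ (hG v) v0).trans (Int.cast_le.2 e))
      by_cases c : ξ E = 0
      · simp [c]
      · exact mul_le_mul_of_nonneg_left
          (Int.cast_le.2 (fm.inv E (hξ E c).1 (hξ E c).2 G hG v v0)) (ξ0 E)
  replace k := k (dv h + (q : ℝ)⁻¹ • dv g - Γ)
    (sub_mem (add_mem (dv_mem_Car _) (Submodule.smul_mem _ _ (dv_mem_Car _))) a.dn.car) (-Γ')
    (neg_mem a.dn'.car) (fun δ e => by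
      obtain ⟨γ, s, f⟩ := Br.klr a a.dn.neg (nf nef) e
      refine ⟨dv h + (q : ℝ)⁻¹ • dv g + γ,
        ((smp_dv h).add ((smp_dv _).smul (inv_pos.2 q0).le)).add s, fun P o => ?_⟩
      have := f P o
      simp only [Pi.add_apply, Pi.sub_apply, Pi.smul_apply, Pi.neg_apply, smul_eq_mul] at this ⊢
      linarith)
    (by
      rintro _ ⟨E, c, rfl⟩
      rw [eψ E c.1, κ0 E c.1 c.2, Int.cast_zero, mul_zero])
  have e : ∑ᶠ E, ξ E * (dv h + (q : ℝ)⁻¹ • dv g - Γ) (pq E) = -(q : ℝ)⁻¹ * ∑ᶠ E, ξ E * κ E := by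
    rw [mul_finsum]
    refine finsum_congr fun E => ?_
    by_cases c : ξ E = 0
    · simp [c]
    · rw [eψ E (hξ E c).1, mul_left_comm]
  rw [fs_ext pq_inj, e] at k
  have l := lc Q o
  have x := ec Q
  simp only [dsc, Pi.sub_apply, Pi.add_apply, Pi.smul_apply, smul_eq_mul, dv_apply] at k l
  have k' := mul_le_mul_of_nonneg_left k q0.le
  rw [neg_mul, mul_neg, mul_inv_cancel_left₀ q0.ne', mul_sub, mul_add,
    mul_inv_cancel_left₀ q0.ne'] at k'
  nlinarith [mul_le_mul_of_nonneg_left l q0.le]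

end Vale.Agent.P283R.Wr
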