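import Vale.Agent.P283R.Wr.St

/-!
# P283R, block WD, any rank: the prime divisors of the torus and the invariant prime divisors
-/

set_option linter.all false

open Set CategoryTheory AlgebraicGeometry
open Vale.Agent.P285N.Brep (Fr)

noncomputable section

namespace Vale.Agent.P283R.Wr

variable {ρ : ℕ}

open Vale.Agent.P287D Vale.Agent.P283M Vale.Agent.P283R.To Vale.Agent.P297Z

namespace I87

variable {K : Type} [Field K] [Algebra ℂ K] {s : K} {y : Fin ρ → K} {P : Pl K}
  {D : Fin (ρ + 1) → Derivation ℂ K K} {u : Fin ρ → ℤ} {a : K}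

theorem y_ne (h : AlgebraicIndependent ℂ (fr s y)) (j : Fin ρ) : y j ≠ 0 := h.ne_zero j.succ

theorem hm_adj (h : a ∈ Hm s y u) : a ∈ IntermediateField.adjoin ℂ (range (fr s y)) := by
  obtain ⟨φ, hφ, rfl⟩ := h
  exact mul_mem (IntermediateField.adjoin.mono ℂ _ _ 
    (singleton_subset_iff.2 (mem_range_self (f := fr s y) 0)) hφ)
    (prod_mem fun j _ => zpow_mem
      (IntermediateField.subset_adjoin ℂ _ (mem_range_self (f := fr s y) j.succ)) _)

theorem hm_zero (h : a ∈ IntermediateField.adjoin ℂ {s}) : a ∈ Hm s y 0 :=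
  ⟨a, h, by simp [mon]⟩

theorem tv_ord (h : AlgebraicIndependent ℂ (fr s y)) (t : Tv s y P) (i : Fin (ρ + 1)) :
    P.ord (fr s y i) = 0 := by
  refine Fin.cases (t 0 _ (hm_zero (IntermediateField.mem_adjoin_simple_self ℂ s)) (h.ne_zero 0))
    (fun j => t (Pi.single j 1) _ ⟨1, one_mem _, ?_⟩ (h.ne_zero j.succ)) i
  show y j = _
  rw [one_mul, mon, Finset.prod_eq_single j (fun i _ z => by rw [Pi.single_eq_of_ne z, zpow_zero])
    fun z => (z (Finset.mem_univ _)).elim, Pi.single_eq_same, zpow_one]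

theorem hm_loc (h : AlgebraicIndependent ℂ (fr s y)) (t : Tv s y P) (ha : a ∈ Hm s y u) :
    a ∈ Pri.loc (fr s y) P := by
  obtain ⟨φ, hφ, rfl⟩ := ha
  refine mul_mem ?_ ?_
  · obtain ⟨p, q, rfl⟩ := (IntermediateField.mem_adjoin_simple_iff ℂ φ).1 hφ
    by_cases q0 : Polynomial.aeval s q = 0
    · rw [q0, div_zero]
      exact zero_mem _
    have e : ∀ r : Polynomial ℂ, MvPolynomial.aeval (fr s y) (r.toMvPolynomial (0 : Fin (ρ + 1))) =
        Polynomial.aeval s r := fun r => MvPolynomial.aeval_toMvPolynomial _ _ r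
    refine ⟨p.toMvPolynomial 0, q.toMvPolynomial 0, ⟨(e q).symm ▸ q0, ?_⟩, ?_⟩
    · rw [e]
      exact t 0 _ (hm_zero ((IntermediateField.mem_adjoin_simple_iff ℂ _).2 ⟨q, 1, by simp⟩)) q0
    · rw [e, e, div_mul_cancel₀ _ q0]
  · have := Pri.lau_mem h.ne_zero (tv_ord h t) (Finsupp.single (Fin.cons 0 u) 1)
    rw [lau, Finsupp.sum_single_index (h := fun m c => c • mon (fr s y) m) (zero_smul _ _),
      one_smul] at this
    simpa [mon, fr, Fin.prod_univ_succ] using this

theorem aev_lau {d : ℕ} (z : Fin d → K) (p : MvPolynomial (Fin d) ℂ) :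
    ∃ g, lau z g = MvPolynomial.aeval z p := by
  have : MvPolynomial.aeval z p ∈ Submodule.span ℂ (mon z '' univ) := by
    rw [MvPolynomial.aeval_def, MvPolynomial.eval₂_eq']
    refine sum_mem fun m _ => ?_
    rw [← Algebra.smul_def]
    exact Submodule.smul_mem _ _ (Submodule.subset_span ⟨fun i => m i, trivial, by simp [mon]⟩)
  exact let ⟨g, _, e⟩ := Sch.lau_of this; ⟨g, e⟩

/-- the Euler derivations -/
def th (y : Fin ρ → K) (D : Fin (ρ + 1) → Derivation ℂ K K) (i : Fin ρ) : Derivation ℂ K K :=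
  y i • D i.succ

theorem eul (hD : Fr (fr s y) D) (hy : ∀ j, y j ≠ 0) (i : Fin ρ) (h : a ∈ Hm s y u) :
    th y D i a = (u i : ℂ) • a := by
  obtain ⟨φ, hφ, rfl⟩ := h
  have d : ∀ j, D i.succ (y j) = if i = j then 1 else 0 := fun j => by
    simpa [fr] using hD.dual i.succ j.succ
  have z : D i.succ φ = 0 := by
    have s0 : D i.succ s = 0 := by simpa [fr] using hD.dual i.succ 0
    obtain ⟨p, q, rfl⟩ := (IntermediateField.mem_adjoin_simple_iff ℂ φ).1 hφ
    simp [Derivation.leibniz_div, Derivation.map_aeval, s0]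
  rw [th, Derivation.smul_apply, Derivation.leibniz, z, smul_zero, add_zero, der_mon _ hy,
    Finset.sum_eq_single i (fun j _ h => by rw [d, if_neg h.symm]; simp) (by simp), d, if_pos rfl,
    Algebra.smul_def (u i : ℂ), map_intCast]
  have := hy i
  simp only [smul_eq_mul]
  field_simp

theorem sep (hD : Fr (fr s y) D) (hy : ∀ j, y j ≠ 0) (I : Submodule ℂ K)
    (hI : ∀ i, ∀ a ∈ I, th y D i a ∈ I) {G : (Fin ρ → ℤ) → K} (hG : ∀ u, G u ∈ Hm s y u)
    (m : Fin ρ → ℤ) (T : Finset (Fin ρ → ℤ)) :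
    ∀ (c₀ : ℂ) (c : (Fin ρ → ℤ) → ℂ), m ∉ T → c₀ ≠ 0 →
      c₀ • G m + ∑ l ∈ T, c l • G l ∈ I → G m ∈ I := by
  classical
  induction T using Finset.induction_on with
  | empty => exact fun c₀ c _ h k => (I.smul_mem_iff h).1 (by simpa using k)
  | insert a T ha ih =>
    intro c₀ c hm h k
    rw [Finset.mem_insert, not_or] at hm
    obtain ⟨i, hi⟩ := Function.ne_iff.1 hm.1
    refine ih (c₀ * (m i - a i)) (fun l => c l * (l i - a i)) hm.2
      (mul_ne_zero h (sub_ne_zero.2 (by exact_mod_cast hi))) ?_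
    convert I.sub_mem (hI i _ k) (I.smul_mem (a i : ℂ) k) using 1
    simp only [Finset.sum_insert ha, map_add, map_sum, Derivation.map_smul,
      fun l => eul hD hy i (hG l), smul_add, Finset.smul_sum, smul_smul, mul_sub, sub_smul,
      Finset.sum_sub_distrib, mul_comm (a i : ℂ)]
    abel

/-- the components of an element of a stable space -/
theorem sep' (hD : Fr (fr s y) D) (hy : ∀ j, y j ≠ 0) (I : Submodule ℂ K)
    (hI : ∀ i, ∀ a ∈ I, th y D i a ∈ I) {G : (Fin ρ → ℤ) →₀ K} (hG : Hg s y G) (h : tot G ∈ I)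
    (m : Fin ρ → ℤ) : G m ∈ I := by
  classical
  by_cases hm : m ∈ G.support
  · refine sep hD hy I hI hG m (G.support.erase m) 1 1 (by simp) one_ne_zero ?_
    simp only [Pi.one_apply, one_smul]
    rwa [Finset.add_sum_erase _ (fun l => G l) hm]
  · rw [Finsupp.notMem_support_iff.1 hm]
    exact zero_mem _

theorem lg {θ : Derivation ℂ K K} (r : ∀ a ∈ P.ring, θ a ∈ P.ring) {h : K} {c : ℂ} (h0 : h ≠ 0)
    (hj : P.ord h ≠ 0) (e : θ h = c • h) {G : K} (hG : G ≠ 0) : θ G / G ∈ P.ring := by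
  have : CharZero K := charZero_of_injective_algebraMap (algebraMap ℂ K).injective
  have u0 : G ^ P.ord h / h ^ P.ord G ≠ 0 :=
    div_ne_zero (zpow_ne_zero _ hG) (zpow_ne_zero _ h0)
  have u1 : P.ord (G ^ P.ord h / h ^ P.ord G) = 0 := by
    rw [Pl.ord_div _ (zpow_ne_zero _ hG) (zpow_ne_zero _ h0), Pl.ord_zpow, Pl.ord_zpow]
    ring
  obtain ⟨u2, u3⟩ := (Pl.ord_eq_zero_iff _ u0).1 u1
  have k := mul_mem (r _ u2) u3
  have e' : θ G / G = ((P.ord h : ℂ)⁻¹) •
      (θ (G ^ P.ord h / h ^ P.ord G) * (G ^ P.ord h / h ^ P.ord G)⁻¹ +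
        (P.ord G : ℂ) • c • (1 : K)) := by
    rw [Derivation.leibniz_div, θ.leibniz_zpow, θ.leibniz_zpow, zpow_sub_one₀ hG,
      zpow_sub_one₀ h0, e]
    have a1 := zpow_ne_zero (P.ord h) hG
    have a2 := zpow_ne_zero (P.ord G) h0
    have a4 : (P.ord h : K) ≠ 0 := by exact_mod_cast hj
    simp only [Algebra.smul_def, map_inv₀, map_intCast, eq_intCast,
      Algebra.algebraMap_self, RingHom.id_apply]
    field_simp
    ring
  rw [e']
  exact Mop.smul_mem P _ (add_mem k (Mop.smul_mem P _ (Mop.smul_mem P _ (one_mem _))))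

/-- a place whose ring is stable under the Euler derivations -/
theorem inv_of (hD : Fr (fr s y) D) (hy : ∀ j, y j ≠ 0)
    (r : ∀ i, ∀ a ∈ P.ring, th y D i a ∈ P.ring) (n : ¬ Tv s y P) {G : (Fin ρ → ℤ) →₀ K}
    (hG : Hg s y G) (hu : G u ≠ 0) : P.ord (tot G) ≤ P.ord (G u) := by
  obtain ⟨v, h, hv, h0, hj⟩ : ∃ v, ∃ h ∈ Hm s y v, h ≠ 0 ∧ P.ord h ≠ 0 := by
    by_contra c
    push Not at c
    exact n c
  have G0 : tot G ≠ 0 := fun e => hu ((Submodule.mem_bot ℂ).1 (sep' hD hy ⊥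
    (fun i a ha => by simp [(Submodule.mem_bot ℂ).1 ha]) hG ((Submodule.mem_bot ℂ).2 e) u))
  let I : Submodule ℂ K :=
    { carrier := {a | a / tot G ∈ P.ring}
      add_mem' := fun {a b} ha hb => by
        change (a + b) / tot G ∈ P.ring
        rw [add_div]
        exact add_mem ha hb
      zero_mem' := by
        change (0 : K) / tot G ∈ P.ring
        rw [zero_div]
        exact zero_mem _
      smul_mem' := fun c a ha => by
        change (c • a) / tot G ∈ P.ring
        rw [smul_div_assoc]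
        exact Mop.smul_mem P c ha }
  have k : G u / tot G ∈ P.ring := by
    refine sep' hD hy I (fun i a ha => ?_) hG ?_ u
    · change th y D i a / tot G ∈ P.ring
      have e : th y D i a / tot G = th y D i (a / tot G) +
          a / tot G * (th y D i (tot G) / tot G) := by
        rw [Derivation.leibniz_div]
        simp only [smul_eq_mul]
        field_simp
        ring
      rw [e]
      exact add_mem (r i _ ha) (mul_mem ha (lg (r i) h0 hj (eul hD hy i hv) G0))
    · change tot G / tot G ∈ P.ring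
      rw [div_self G0]
      exact one_mem _
  have := Pl.ord_nonneg_of_mem _ k
  rw [Pl.ord_div _ hu G0] at this
  linarith

end I87

open I87 Vale.Agent.P283M.Stm Vale.Agent.P283M.Stm.Var Vale.Agent.P283M.Br Vale.Agent.P283R.Gl

/-- **RAT** -/
theorem rat : RAT ρ := by
  intro X W s y x h hx
  refine ⟨⟨h.1, fun a => ?_⟩, fun E hE t => ⟨tv_ord h.1 t, fun a ha => ?_⟩⟩
  · obtain ⟨U, -, hU, xU, eS⟩ := h.2 x hx
    have g0 : genericPoint X.X ∈ U := (genericPoint_specializes x).mem_open U.isOpen xU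
    obtain ⟨b, h1, h2, h3⟩ := Am.frac hU g0 (P270L.S.mem_loc_gen a)
    have k : ∀ g, g ∈ Am.reg U → g ∈ IntermediateField.adjoin ℂ (range (fr s y)) := fun g hg =>
      (Submodule.span_le (p := (IntermediateField.adjoin ℂ
        (range (fr s y))).toSubalgebra.toSubmodule)).2 (fun _ c => hm_adj c.2.choose_spec)
        (eS g (Am.mem_reg.1 hg))
    rw [← mul_div_cancel_left₀ a h2.1]
    exact div_mem (k _ h3) (k _ h1)
  · obtain ⟨U, -, hU, xU, eS⟩ := h.2 _ hE
    obtain ⟨b, h1, h2, h3⟩ := Am.frac (f := a) hU xU ((pq_is E a).1 ha)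
    have k : ∀ g, g ∈ Am.reg U → g ∈ Pri.loc (fr s y) (pq E) := fun g hg =>
      (Submodule.span_le (p := (Pri.loc (fr s y) (pq E)).toSubmodule)).2
        (fun _ c => hm_loc h.1 t c.2.choose_spec) (eS g (Am.mem_reg.1 hg))
    obtain ⟨p, q, u, e⟩ := k _ h3
    obtain ⟨p', q', u', e'⟩ := k _ h1
    have v : Pri.Un (fr s y) (pq E) (q * p') := u.mul ⟨e' ▸ mul_ne_zero h2.1 u'.1, by
      rw [← e', Pl.ord_mul _ h2.1 u'.1, (pq_is E).dom.ord h2, u'.2, add_zero]⟩
    obtain ⟨g, hg⟩ := aev_lau (fr s y) (p * q')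
    obtain ⟨g', hg'⟩ := aev_lau (fr s y) (q * p')
    refine ⟨g, g', fun c => ?_, ?_⟩
    · rw [hg'] at c
      have := ((Bm.rd_zero_iff _ ((Pl.ord_eq_zero_iff _ v.1).1 v.2).1).1 c).resolve_left v.1
      exact this.ne' v.2
    · rw [hg, hg', eq_div_iff v.1, map_mul, map_mul, ← e, ← e']
      ring

/-- **INV** -/
theorem inv : INV ρ := by
  intro X W s y x h hx E hE n G hG u hu
  have hr := (rat X W s y x h hx).1
  obtain ⟨D, hD⟩ := Cb.fr_of hr.ff hr.ind
  obtain ⟨U, -, hU, xU, eS⟩ := h.2 _ hE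
  refine inv_of hD (y_ne h.1) (fun i a ha => ?_) n hG hu
  obtain ⟨b, h1, h2, h3⟩ := Am.frac (f := a) hU xU ((pq_is E a).1 ha)
  have k : ∀ g, g ∈ Am.reg U → th y D i g ∈ (pq E).ring := fun g hg => by
    have := eS g (Am.mem_reg.1 hg)
    clear hg
    induction this using Submodule.span_induction with
    | mem c hc =>
      obtain ⟨c1, v, c2⟩ := hc
      rw [eul hD (y_ne h.1) i c2]
      exact Mop.smul_mem _ _ ((pq_is E c).2 (c1 _ xU))
    | zero => rw [map_zero]; exact zero_mem _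
    | add c c' _ _ a b => rw [map_add]; exact add_mem a b
    | smul c c' _ a => rw [Derivation.map_smul]; exact Mop.smul_mem _ _ a
  have e : th y D i a = (th y D i (b * a) - a * th y D i b) * b⁻¹ := by
    rw [Derivation.leibniz]
    have := h2.1
    simp only [smul_eq_mul]
    field_simp
    ring
  rw [e]
  exact mul_mem (sub_mem (k _ h3) (mul_mem ha (k _ h1))) ((pq_is E _).2 h2.2.2)

/-- **INVR** -/
theorem invr : INVR ρ := fun _ _ _ => inv

end Vale.Agent.P283R.Wr
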