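import Mathlib.RingTheory.Spectrum.Prime.Chevalley
import Mathlib.RingTheory.Flat.TorsionFree
import Vale.Agent.P283R.Wr.St

/-!
# P283R, block WD, any rank: only finitely many points of the projective line are missed
-/

open Set Polynomial AlgebraicGeometry

noncomputable section

namespace Vale.Agent.P283R.Wr

variable {ρ : ℕ}

open Vale.Agent.P287D Vale.Agent.P283M Vale.Agent.P283R.To

/-- a finitely generated algebra contains only finitely many `1 / (s - p)` -/
theorem Mis.units {K : Type} [Field K] [Algebra ℂ K] (T : Finset K) {s : K}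
    (hs : Transcendental ℂ s) :
    {p : ℂ | (s - algebraMap ℂ K p)⁻¹ ∈ Algebra.adjoin ℂ (T : Set K)}.Finite := by
  classical
  let B : Subalgebra ℂ K := Algebra.adjoin ℂ ((insert s T : Finset K) : Set K)
  have le : Algebra.adjoin ℂ (T : Set K) ≤ B := Algebra.adjoin_mono (by simp)
  let t : B := ⟨s, Algebra.subset_adjoin (by simp)⟩
  let φ : ℂ[X] →ₐ[ℂ] B := aeval t
  have e : ∀ h, (φ h : K) = aeval s h := fun h => (aeval_algHom_apply B.val t h).symm
  have inj : Function.Injective φ := (injective_iff_map_eq_zero φ).2 fun h a =>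
    transcendental_iff.1 hs h (by rw [← e, a]; rfl)
  let _ : Algebra ℂ[X] B := φ.toRingHom.toAlgebra
  have : IsScalarTower ℂ ℂ[X] B := .of_algebraMap_eq fun c => (φ.commutes c).symm
  have : Algebra.FiniteType ℂ B := (Subalgebra.fg_iff_finiteType B).1 ⟨_, rfl⟩
  have : Algebra.FiniteType ℂ[X] B := .of_restrictScalars_finiteType ℂ _ _
  have : Algebra.FinitePresentation ℂ[X] B := Algebra.FinitePresentation.of_finiteType.1 this
  have : FaithfulSMul ℂ[X] B := (faithfulSMul_iff_algebraMap_injective _ _).2 inj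
  have o := (PrimeSpectrum.isOpenMap_comap_of_hasGoingDown_of_finitePresentation
    (R := ℂ[X]) (S := B)).isOpen_range
  obtain ⟨_, ⟨_, ⟨h, rfl⟩, rfl⟩, h1, h2⟩ := PrimeSpectrum.isBasis_basic_opens.exists_subset_of_mem_open
    (mem_range_self (⟨⊥, Ideal.isPrime_bot⟩ : PrimeSpectrum B)) o
  have h0 : h ≠ 0 := fun a => h1 (by rw [a]; exact zero_mem _)
  refine (h.roots.toFinset.finite_toSet).subset fun p hp => ?_
  rw [Finset.mem_coe, Multiset.mem_toFinset, mem_roots h0]
  by_contra c
  obtain ⟨q, hq⟩ := @h2 ⟨Ideal.span {X - C p},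
    (Ideal.span_singleton_prime (X_sub_C_ne_zero p)).2 (prime_X_sub_C p)⟩
    fun a => c (dvd_iff_isRoot.1 (Ideal.mem_span_singleton.1 a))
  have m : φ (X - C p) ∈ q.asIdeal := by
    have : X - C p ∈ (PrimeSpectrum.comap (algebraMap ℂ[X] B) q).asIdeal := by
      rw [hq]; exact Ideal.mem_span_singleton_self _
    exact this
  have v : (φ (X - C p) : K) = s - algebraMap ℂ K p := by rw [e]; simp
  have n : s - algebraMap ℂ K p ≠ 0 := fun a => X_sub_C_ne_zero p
    (inj (Subtype.ext (by rw [v, a, map_zero]; rfl)))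
  exact q.2.ne_top (q.asIdeal.eq_top_of_isUnit_mem m (IsUnit.of_mul_eq_one ⟨_, le hp⟩
    (Subtype.ext (by rw [Subalgebra.coe_mul, v]; exact mul_inv_cancel₀ n))))

open Vale.Agent.P283M.Stm Vale.Agent.P283M.Stm.Var Vale.Agent.P283M.Br Vale.Agent.P283R.Gl

theorem mis : MIS ρ := fun X W s y x h hx => by
  obtain ⟨U, UW, hU, xU, -⟩ := h.2 x hx
  obtain ⟨T, -, hT⟩ := Am.Str.fg (Am.str X) hU xU
  refine (Mis.units T (s := s) (h.1.transcendental 0)).subset fun p hp =>
    hT _ (Am.mem_reg.2 fun x' hx' => har X _ x' fun E hE => ?_)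
  rw [pq_ord, (pq E).ord_inv, neg_nonneg]
  exact not_lt.1 fun a => hp ⟨E, UW (hE.mem_open U.isOpen hx'), a⟩

theorem misr : MISR ρ := fun _ _ _ => mis

end Vale.Agent.P283R.Wr
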