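import Vale.Agent.P283R.C3.Conv
import Vale.Agent.P283R.C3.Kt
import Vale.Agent.P283R.Wr.Cz
import Vale.Agent.P283R.Wr.Fac
import Vale.Agent.P283R.Wr.Fm
import Vale.Agent.P283R.Wr.Gsp
import Vale.Agent.P283R.Wr.Hws
import Vale.Agent.P283R.Wr.Inv
import Vale.Agent.P283R.Wr.Lau
import Vale.Agent.P283R.Wr.Mis
import Vale.Agent.P283R.Wr.Mob
import Vale.Agent.P283R.Wr.Shr
import Vale.Agent.P283R.Wr.Span
import Vale.Agent.P283R.Wr.Sums

/-!
# P283R, block WD, any rank: the closed rows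
-/

namespace Vale.Agent.P283R.Wr

variable {ρ : ℕ}

/-- **LAU** -/
theorem lau : LAU ρ := laur70 fac20 sums rat

/-- **FM** -/
theorem fm : FM ρ := fmr cz_row C3.kt rat inv lau mis

/-- **HWS** -/
theorem hws : HWS ρ := hwr sums cz_row C3.conv

end Vale.Agent.P283R.Wr
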