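import Vale.Agent.P283R.Wr.Gp68
import Vale.Agent.P283R.Wr.Cz
import Vale.Agent.P283R.Wr.Fac
import Vale.Agent.P283R.Wr.Sums
import Vale.Agent.P283R.C3.Ell
import Vale.Agent.P283R.Wd.Hz66
import Vale.Agent.P283R.Wd.Fk66

/-!
# P283R, block WD, any rank: all pages are non-empty and `s` does not come from the base
-/

open Set

noncomputable section

namespace Vale.Agent.P283R.Wr

open Vale.Agent.P287D Vale.Agent.P297Z Vale.Agent.P283M Vale.Agent.P283R.To

variable {ρ : ℕ}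

namespace E68

variable {K : Type} [Field K] [Algebra ℂ K] {ι : Type} {s : K} {y : Fin ρ → K}
  {w : ι → Prop} {P : ι → Pl K} {ε : ℝ} {q : ℕ} {κ : ι → ℤ}

theorem od_sum (n : ℂ →₀ ℤ) (A : Finset (Option ℂ)) (h0 : none ∈ A)
    (h : ∀ p, n p ≠ 0 → some p ∈ A) : ∑ r ∈ A, od n r = 0 :=
  (Finset.sum_congr rfl fun r _ => by cases r <;> rfl).trans (C3.E16.od_sum n A h0 h)

theorem fs_fin {ξ : ι → ℝ} (hξ : ∀ E, ξ E ≠ 0 → w E ∧ ¬ Tv s y (P E))
    {F : ι → ℤ} (hF : {E | w E ∧ F E ≠ 0}.Finite) :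
    (Function.support fun E => ξ E * (F E : ℝ)).Finite :=
  hF.subset fun E c => ⟨(hξ E (left_ne_zero_of_mul c)).1,
    Int.cast_ne_zero.1 (right_ne_zero_of_mul c)⟩

/-- the inequality at the trivial valuation -/
theorem hw0 (X : Fm s y w P) {g : K} (hw : Hw ε q s y w P g κ) (κf : {E | w E ∧ κ E ≠ 0}.Finite)
    (E₀ : ι) (h₀ : w E₀ ∧ ¬ Tv s y (P E₀))
    (ξ : ι → ℝ) (ξ0 : 0 ≤ ξ) (hξ : ∀ E, ξ E ≠ 0 → w E ∧ ¬ Tv s y (P E))
    (oa : ∀ u, ∀ x ∈ Hm s y u, x ≠ 0 → ∑ᶠ E, ξ E * (P E).ord x ≤ 0) : ∑ᶠ E, ξ E * κ E ≤ 0 := by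
  classical
  have hζ : ∀ E, (if E = E₀ then (1 : ℝ) else 0) ≠ 0 → w E ∧ ¬ Tv s y (P E) := fun E hE => by
    by_cases z : E = E₀
    · exact z ▸ h₀
    · exact (hE (if_neg z)).elim
  have ad : ∀ (a : ℝ) (F : ι → ℤ), {E | w E ∧ F E ≠ 0}.Finite →
      ∑ᶠ E, (a * ξ E + if E = E₀ then 1 else 0) * F E = a * ∑ᶠ E, ξ E * F E + F E₀ :=
    fun a F hF => by
      simp only [add_mul]
      rw [finsum_add_distrib (fs_fin (fun E hE => hξ E (right_ne_zero_of_mul hE)) hF)
        (fs_fin hζ hF), mul_finsum, finsum_eq_single (fun E =>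
          (if E = E₀ then (1 : ℝ) else 0) * F E) E₀ fun E hE => by simp [hE]]
      simp [mul_assoc]
  have key : ∀ a : ℝ, 0 ≤ a → ε * q ≤ q * (cz s y (P E₀) + 1) - (P E₀).ord g -
      (a * ∑ᶠ E, ξ E * κ E + κ E₀) := fun a a0 => by
    have := hw (P E₀) (fun E => a * ξ E + if E = E₀ then 1 else 0)
      (fun E => add_nonneg (mul_nonneg a0 (ξ0 E)) (by split_ifs <;> simp))
      (fun E hE => by
        by_cases z : E = E₀
        · exact z ▸ h₀
        · exact hξ E fun z' => hE (by simp [z, z']))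
      fun u x hx x0 => by
        rw [ad a (fun E => (P E).ord x) (X.fin x)]
        linarith [mul_nonpos_of_nonneg_of_nonpos a0 (oa u x hx x0)]
    rwa [ad a κ κf] at this
  by_contra hc
  rw [not_le] at hc
  obtain ⟨m, hm⟩ := exists_nat_gt ((q * (cz s y (P E₀) + 1) - (P E₀).ord g - κ E₀ - ε * q) /
    ∑ᶠ E, ξ E * κ E)
  rw [div_lt_iff₀ hc] at hm
  have := key m (Nat.cast_nonneg m)
  linarith

/-- the inequality without `g` and `κ` -/
theorem hwz (X : Fm s y w P) (ε0 : 0 ≤ ε) (q1 : 1 ≤ q) {g : K} (g0 : g ≠ 0)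
    (gT : ∀ E, w E → Tv s y (P E) → 0 ≤ (P E).ord g) (κf : {E | w E ∧ κ E ≠ 0}.Finite)
    (hκ : ∀ E, w E → q * cz s y (P E) - (P E).ord g ≤ κ E) (hw : Hw ε q s y w P g κ)
    (E₀ : ι) (h₀ : w E₀ ∧ ¬ Tv s y (P E₀)) (v : Fin ρ → ℤ) (ξ : ι → ℝ) (ξ0 : 0 ≤ ξ)
    (hξ : ∀ E, ξ E ≠ 0 → w E ∧ ¬ Tv s y (P E))
    (e : ∀ n u, ∑ᶠ E, ξ E * (P E).ord (hm s y n u) = (u ⬝ᵥ v : ℤ)) :
    (if v = 0 then 0 else ε) ≤ -∑ᶠ E, ξ E * cz s y (P E) := by
  obtain ⟨G, hG, rfl⟩ := X.lau g g0 gT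
  have q0 : (0 : ℝ) < q := Nat.cast_pos.2 q1
  have k : ∀ u, G u ≠ 0 → q * ∑ᶠ E, ξ E * cz s y (P E) ≤
      ∑ᶠ E, ξ E * (P E).ord (G u) + ∑ᶠ E, ξ E * κ E := fun u hu => by
    have a := fs_fin hξ (X.fin (G u))
    have b := fs_fin hξ κf
    rw [← finsum_add_distrib a b, mul_finsum]
    refine finsum_le_finsum' ((fs_fin hξ X.finc).subset fun E z => right_ne_zero_of_mul z)
      ((a.union b).subset (Function.support_add _ _)) fun E => ?_
    by_cases z : ξ E = 0
    · simp [z]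
    · have h1 := hκ E (hξ E z).1
      have h2 := X.inv E (hξ E z).1 (hξ E z).2 G hG u hu
      have h3 : (q : ℝ) * cz s y (P E) ≤ (P E).ord (G u) + κ E := by
        exact_mod_cast (by linarith : q * cz s y (P E) ≤ (P E).ord (G u) + κ E)
      have := mul_le_mul_of_nonneg_left h3 (ξ0 E)
      simp only
      linarith
  split_ifs with v0
  · have oa : ∀ u, ∀ x ∈ Hm s y u, x ≠ 0 → ∑ᶠ E, ξ E * (P E).ord x ≤ 0 := fun u x hx x0 => by
      obtain ⟨c, n, c0, rfl⟩ := (fac20 K s y X.rat).1 u x hx x0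
      simp only [Pl.ord_smul _ c0]
      rw [e, v0]
      simp
    obtain ⟨u, hu, -⟩ := (sums K s y X.rat).2.1 G (P E₀) g0
    have := k u hu
    have := hw0 X hw κf E₀ h₀ ξ ξ0 hξ oa
    have := oa u _ (hG u) hu
    exact le_of_mul_le_mul_left (by linarith) q0
  · obtain ⟨u, hu, l⟩ := hwg fac20 sums cz_row X.rat ε0 hG g0 hw none 0 v (.inr v0) ξ ξ0 hξ
      fun n u => by simpa using e n u
    have := k u hu
    simp only [Nat.cast_zero, mul_zero] at l
    exact le_of_mul_le_mul_left (by linarith) q0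

end E68

open E68 C3.E16 in
theorem elp (ρ : ℕ) {ε : ℝ} (ε0 : 0 < ε) : ∃ N : ℕ, ∀ q : ℕ, 1 ≤ q →
    ForF (ρ := ρ) fun K _ _ ι s y w P => ∀ (g : K) (κ : ι → ℤ), g ≠ 0 →
      (∀ E, w E → Tv s y (P E) → 0 ≤ (P E).ord g) → {E | w E ∧ κ E ≠ 0}.Finite →
      (∀ E, w E → q * cz s y (P E) - (P E).ord g ≤ κ E) → Hw ε q s y w P g κ →
      (∀ r, ∃ E, w E ∧ At s (P E) r) →
      (∀ b : K, (∀ E, w E → 0 ≤ (P E).ord b) → (∀ E, w E → 0 ≤ (P E).ord (s * b)) → b = 0) →
      ∃ (Kp : Finset ℂ) (a : ℂ → Fin ρ → ℤ), Kp.card ≤ N ∧ ∀ E p, w E → p ∉ Kp →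
        At s (P E) (some p) → mu s (P E) (some p) = 1 ∧ ∀ j, (P E).ord (y j) = a p j := by
  obtain ⟨N, hN⟩ := Wd.hz0 ρ ε0
  refine ⟨N, fun q q1 K _ _ ι s y w P X g κ g0 gT κf hκ hw ev nb => ?_⟩
  classical
  obtain ⟨f1, f2, -, f4, f5, f6, f7⟩ := fac20 K s y X.rat
  obtain ⟨c1, c2, -, -⟩ := cz_row K s y X.rat
  choose b bw bA using ev
  have bi : Function.Injective b := fun r r' e => f4 _ _ _ (bA r) (e ▸ bA r')
  let pt₀ : ι → Option ℂ := fun E => if h : ∃ r, At s (P E) r then h.choose else none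
  have p0 : ∀ E r, At s (P E) r → pt₀ E = r := fun E r h => by
    have h' : ∃ r, At s (P E) r := ⟨r, h⟩
    simp only [pt₀, dif_pos h']
    exact f4 _ _ _ h'.choose_spec h
  have fb : {E | w E ∧ ((∃ j, (P E).ord (y j) ≠ 0) ∨ cz s y (P E) ≠ 0)}.Finite :=
    ((Set.finite_iUnion fun j => X.fin (y j)).union X.finc).subset fun E hE => by
      obtain ⟨h0, ⟨j, h⟩ | h⟩ := hE
      · exact .inl (mem_iUnion.2 ⟨j, h0, h⟩)
      · exact .inr ⟨h0, h⟩
  obtain ⟨S, S0, S2⟩ : ∃ S : Finset (Option ℂ), none ∈ S ∧ ∀ r ∉ S, ∀ E, w E → At s (P E) r →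
        (∀ j, (P E).ord (y j) = 0) ∧ cz s y (P E) = 0 ∧ mu s (P E) r = 1 := by
    refine ⟨insert none (fb.toFinset.image pt₀), Finset.mem_insert_self _ _, fun r hr E hE hA => ?_⟩
    have : ¬ ((∃ j, (P E).ord (y j) ≠ 0) ∨ cz s y (P E) ≠ 0) := fun h =>
      hr (Finset.mem_insert_of_mem (Finset.mem_image.2
        ⟨E, fb.mem_toFinset.2 ⟨hE, h⟩, p0 E r hA⟩))
    simp only [not_or, not_exists, not_not] at this
    refine ⟨this.1, this.2, ?_⟩
    cases r with
    | none => exact (hr (Finset.mem_insert_self _ _)).elim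
    | some p =>
      have h1 := c1 (P E) p
      have h2 : 0 < mu s (P E) (some p) := hA
      rw [this.2] at h1
      omega
  have fI : {E | w E ∧ ¬ Tv s y (P E) ∧ ∀ r, At s (P E) r → r ∈ S}.Finite :=
    ((S.finite_toSet.biUnion (t := fun r => {E | w E ∧ At s (P E) r}) fun r _ => by
      cases r with
      | none => exact (X.fin s).subset fun E hE => ⟨hE.1, fun h => by
          have : 0 < -(P E).ord s := hE.2
          omega⟩
      | some p => exact (X.fin (s - algebraMap ℂ K p)).subset fun E hE =>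
          ⟨hE.1, ne_of_gt hE.2⟩).union fb).subset fun E ⟨h0, h1, h2⟩ => by
      by_cases h : ∃ r, At s (P E) r
      · obtain ⟨r, h⟩ := h
        exact .inl (mem_biUnion (h2 r h) ⟨h0, h⟩)
      · refine .inr ⟨h0, .inl (by_contra fun z => h1 fun u a ha a0 => ?_)⟩
        obtain ⟨c, n, c0, rfl⟩ := f1 u a ha a0
        rw [Pl.ord_smul _ c0, f7 _ _ _ (not_exists.1 h)]
        exact Finset.sum_eq_zero fun j _ => mul_eq_zero_of_right _ (not_not.1 (not_exists.1 z j))
  obtain ⟨I, hI⟩ : ∃ I : Finset ι, ∀ E, E ∈ I ↔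
      w E ∧ ¬ Tv s y (P E) ∧ ∀ r, At s (P E) r → r ∈ S := ⟨fI.toFinset, fun E => fI.mem_toFinset⟩
  obtain ⟨pt, pA, pN⟩ : ∃ pt : I → Option S, (∀ l r, pt l = some r ↔ At s (P l) r) ∧
      ∀ l, pt l = none → ∀ r, ¬ At s (P l) r := by
    refine ⟨fun l => if h : ∃ r, At s (P l) r then
      some ⟨h.choose, ((hI l).1 l.2).2.2 _ h.choose_spec⟩ else none, fun l r => ?_, fun l z => ?_⟩
    · by_cases h : ∃ r, At s (P l) r
      · simp only [dif_pos h, Option.some.injEq]
        exact ⟨fun z => z ▸ h.choose_spec, fun z => Subtype.ext (f4 _ _ _ h.choose_spec z)⟩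
      · simp only [dif_neg h]
        exact ⟨fun z => (Option.some_ne_none _ z.symm).elim, fun z => (h ⟨_, z⟩).elim⟩
    · by_contra h
      push Not at h
      simp only [dif_pos h] at z
      cases z
  have pm : ∀ (l : I) (r : S), pt l = some r → mu s (P l) (pt₀ l) = mu s (P l) r := fun l r z => by
    rw [p0 _ _ ((pA l r).1 z)]
  have oh : ∀ (l : I) n u, (P l).ord (hm s y n u) = u ⬝ᵥ (fun j => (P l).ord (y j)) +
      (pt l).elim 0 fun r => mu s (P l) (pt₀ l) * od n r := fun l n u => by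
    obtain z | ⟨r, z⟩ := (pt l).eq_none_or_eq_some
    · rw [f7 _ _ _ (pN l z), z]
      simp [dotProduct]
    · rw [f6 _ _ _ _ ((pA l r).1 z), ← pm l r z, z]
      rfl
  have ob : ∀ n u, ∀ r ∉ S, ∀ E, w E → At s (P E) r → (P E).ord (hm s y n u) = od n r :=
    fun n u r hr E a c => by
      obtain ⟨h1, -, h2⟩ := S2 r hr E a c
      rw [f6 _ _ _ _ c, h2]
      simp [h1]
  obtain ⟨Kp, k1, k2, k3⟩ := hN S I pt ⟨none, S0⟩ (fun l => mu s (P l) (pt₀ l))
    (fun l => cz s y (P l)) (fun l j => (P l).ord (y j))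
    (fun l r z => by rw [pm l r z]; exact (pA l r).1 z)
    (fun l r z h => by
      rw [pm l r z]
      obtain h' | ⟨p, h'⟩ := r.1.eq_none_or_eq_some
      · exact (h (Subtype.ext h')).elim
      · rw [h']
        exact c1 _ p)
    (fun l z => by rw [pm l _ z]; exact c2 _)
    (fun l z => by
      have h1 := c1 (P l) 0
      have h2 : ¬ 0 < -(P l).ord s := pN l z none
      simp only [mu, map_zero, sub_zero] at h1
      omega)
    (by
      by_contra hc
      obtain ⟨u, d, d0, hd⟩ := Wd.fk pt _ _ hc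
      let n : ℂ →₀ ℤ := Finsupp.onFinset S.eraseNone
        (fun p => if h : some p ∈ S then d ⟨_, h⟩ else 0) fun p z =>
          Finset.mem_eraseNone.2 (by_contra fun h => z (dif_neg h))
      have n1 : ∀ p (h : some p ∈ S), od n (some p) = d ⟨_, h⟩ := fun p h => dif_pos h
      have n2 : ∀ r ∉ S, od n r = 0 := fun r h => by
        cases r with
        | none => exact (h S0).elim
        | some p => exact dif_neg h
      have n3 : d ⟨none, S0⟩ + 1 ≤ od n none := by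
        have h3 := E68.od_sum n S S0 fun p z => by_contra fun h => z (dif_neg h)
        rw [← Finset.sum_coe_sort S, ← Finset.add_sum_erase _ _ (Finset.mem_univ ⟨none, S0⟩)] at h3
        rw [← Finset.add_sum_erase _ _ (Finset.mem_univ ⟨none, S0⟩)] at d0
        rw [Finset.sum_congr rfl (g := d) fun r hr => by
          obtain ⟨_ | p, h⟩ := r
          · exact ((Finset.mem_erase.1 hr).1 rfl).elim
          · exact n1 p h] at h3
        linarith
      have s0 : s ≠ 0 := X.rat.ind.ne_zero 0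
      have key : ∀ E, w E → 0 ≤ (P E).ord (hm s y n u) ∧
          0 ≤ (P E).ord s + (P E).ord (hm s y n u) := fun E a => by
        by_cases z : At s (P E) none
        · have l : E ∈ I := (hI E).2 ⟨a, f5 _ _ z, fun r c => f4 _ _ _ z c ▸ S0⟩
          have h1 := hd ⟨E, l⟩
          have h2 := (pA ⟨E, l⟩ ⟨none, S0⟩).2 z
          have h3 := oh ⟨E, l⟩ n u
          have h4 : 0 < -(P E).ord s := z
          rw [h2] at h1 h3
          simp only [Option.elim_some, p0 E _ z, mu] at h1 h3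
          rw [h3]
          constructor <;> nlinarith
        · have h4 : ¬ 0 < -(P E).ord s := z
          suffices h : 0 ≤ (P E).ord (hm s y n u) from ⟨h, by omega⟩
          by_cases l : E ∈ I
          · have h1 := hd ⟨E, l⟩
            rw [oh ⟨E, l⟩ n u]
            obtain h2 | ⟨⟨_ | p, r⟩, h2⟩ := (pt ⟨E, l⟩).eq_none_or_eq_some
            · rwa [h2] at h1 ⊢
            · exact (z ((pA _ _).1 h2)).elim
            · rw [h2] at h1 ⊢
              simpa only [Option.elim_some, n1 p r] using h1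
          · by_cases t : Tv s y (P E)
            · exact (t u _ (f2 n u).2 (f2 n u).1).ge
            · obtain ⟨r, c, hr⟩ : ∃ r, At s (P E) r ∧ r ∉ S := by
                by_contra h
                exact l ((hI E).2 ⟨a, t, fun r c => by_contra fun e => h ⟨r, c, e⟩⟩)
              rw [ob n u r hr E a c, n2 r hr]
      exact (f2 n u).1 (nb _ (fun E a => (key E a).1) fun E a => by
        rw [Pl.ord_mul _ s0 (f2 n u).1]
        exact (key E a).2))
    (fun ξ t v ξ0 ht hv => by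
      have t0 : 0 ≤ t := ht ⟨none, S0⟩ ▸ Finset.sum_nonneg fun l hl => mul_nonneg (ξ0 l) (by
        have z := (Finset.mem_filter.1 hl).2
        rw [pm l _ z]
        exact Int.cast_nonneg ((pA l _).1 z).le)
      have W0 : ∀ E, 0 ≤ wt I ξ b S t E := fun E => by
        refine add_nonneg ?_ ?_ <;> split_ifs
        exacts [ξ0 _, le_rfl, t0, le_rfl]
      have W1 : ∀ E, wt I ξ b S t E ≠ 0 → w E ∧ ¬ Tv s y (P E) := fun E hE => by
        by_cases h : E ∈ I
        · exact ⟨((hI E).1 h).1, ((hI E).1 h).2.1⟩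
        · by_cases h' : ∃ r ∉ S, b r = E
          · obtain ⟨r, -, rfl⟩ := h'
            exact ⟨bw r, f5 _ _ (bA r)⟩
          · exact (hE (by simp only [wt, dif_neg h, if_neg h', add_zero])).elim
      obtain ⟨-, Wc⟩ := wt_sum I ξ bi S t (fun E => cz s y (P E)) ∅ (by simp) fun r hr h =>
        (h (S2 r hr _ (bw r) (bA r)).2.1).elim
      rw [Finset.sum_empty, mul_zero, add_zero] at Wc
      rw [← Wc]
      refine hwz X ε0.le q1 g0 gT κf hκ hw (b none) ⟨bw _, f5 _ _ (bA _)⟩ v _ W0 W1 fun n u => ?_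
      obtain ⟨-, h2⟩ := wt_sum I ξ bi S t (fun E => (P E).ord (hm s y n u))
        (n.support.image some \ S) (fun r hr => (Finset.mem_sdiff.1 hr).2) fun r hr h => by
          rw [ob n u r hr _ (bw r) (bA r)] at h
          cases r with
          | none => exact (hr S0).elim
          | some p =>
            exact Finset.mem_sdiff.2
              ⟨Finset.mem_image_of_mem _ (Finsupp.mem_support_iff.2 h), hr⟩
      have h3 := E68.od_sum n (n.support.image some ∪ S) (Finset.mem_union_right _ S0) fun p h =>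
        Finset.mem_union_left _ (Finset.mem_image_of_mem _ (Finsupp.mem_support_iff.2 h))
      rw [← Finset.sdiff_union_self_eq_union, Finset.sum_union Finset.sdiff_disjoint,
        ← Finset.sum_coe_sort S] at h3
      have h4 : ∑ l : I, ξ l * (((pt l).elim 0 fun r => mu s (P l) (pt₀ l) * od n r : ℤ) : ℝ) =
          t * ∑ r : S, (od n r : ℝ) := by
        rw [← Finset.sum_fiberwise (s := Finset.univ) (g := pt), Fintype.sum_option,
          Finset.sum_eq_zero fun l hl => by rw [(Finset.mem_filter.1 hl).2]; simp, zero_add,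
          Finset.mul_sum]
        refine Finset.sum_congr rfl fun r _ => ?_
        rw [← ht r, Finset.sum_mul]
        refine Finset.sum_congr rfl fun l hl => ?_
        rw [(Finset.mem_filter.1 hl).2, mul_assoc]
        simp
      have h5 : ∑ l : I, ξ l * ((u ⬝ᵥ fun j => (P l).ord (y j) : ℤ) : ℝ) = ∑ j, (u j : ℝ) * v j := by
        simp only [hv, Finset.mul_sum, dotProduct, Int.cast_sum, Int.cast_mul]
        rw [Finset.sum_comm]
        exact Finset.sum_congr rfl fun j _ => Finset.sum_congr rfl fun l _ => by ring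
      have h7 := congrArg (Int.cast (R := ℝ)) h3
      simp only [oh, Int.cast_add, mul_add, Finset.sum_add_distrib] at h2
      rw [h2, h5, h4, Finset.sum_congr rfl fun r hr => congrArg (Int.cast (R := ℝ))
        (ob n u r (Finset.mem_sdiff.1 hr).2 _ (bw r) (bA r)), dotProduct]
      push_cast at h7 ⊢
      linear_combination t * h7)
  refine ⟨(Kp.map (Function.Embedding.subtype _)).eraseNone, fun p j => (P (b (some p))).ord (y j),
    (Finset.card_eraseNone_le _).trans (by rwa [Finset.card_map]), fun E p hE hp hA => ?_⟩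
  by_cases h : some p ∈ S
  · have m : ∀ E, w E → At s (P E) (some p) → E ∈ I := fun E a c =>
      (hI E).2 ⟨a, f5 _ _ c, fun r e => f4 _ _ _ c e ▸ h⟩
    obtain ⟨h1, h2⟩ := k3 ⟨E, m E hE hA⟩ ⟨_, m _ (bw _) (bA _)⟩ ⟨_, h⟩
      (fun z => hp (Finset.mem_eraseNone.2 (Finset.mem_map.2 ⟨_, z, rfl⟩)))
      ((pA _ _).2 hA) ((pA _ _).2 (bA _))
    exact ⟨p0 E _ hA ▸ h1, congrFun h2⟩
  · exact ⟨(S2 _ h E hE hA).2.2, fun j =>
      ((S2 _ h E hE hA).1 j).trans ((S2 _ h _ (bw _) (bA _)).1 j).symm⟩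

end Vale.Agent.P283R.Wr
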