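import Vale.Agent.P283R.Wr.St
import Vale.Agent.P283R.To.Bas

/-!
# P283R, block WD, any rank: Gauss places over a point of the projective line, the lattice form of
the inequality
-/

open Set
open Vale.Agent.P285N.Brep (jac Fr)

noncomputable section

namespace Vale.Agent.P283R.Wr

open Vale.Agent.P287D Vale.Agent.P283M Vale.Agent.P283R.To

variable {ρ : ℕ}

/-- the log discrepancy of a point of the projective line for the form `ds` -/
def sg : Option ℂ → ℤ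
  | none => -1
  | some _ => 1

namespace G68

variable {K : Type} [Field K] [Algebra ℂ K] {s : K} {y : Fin ρ → K}

theorem cz_eq (s : K) (y : Fin ρ → K) (P : Pl K) :
    (cz s y P : ℝ) = kap (fr s y) P - ∑ j, (P.ord (y j) : ℝ) := by
  obtain ⟨z, hz⟩ := Cb.kap_int (fr s y) P
  simp [cz, hz]

theorem la_eq (s : K) (y : Fin ρ → K) (P : Pl K) :
    la (fr s y) P = cz s y P + 1 - P.ord s := by
  rw [cz_eq, la, Fin.sum_univ_succ]
  simp only [fr, Fin.cons_zero, Fin.cons_succ]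
  ring

theorem shift (h : D.Rat (fr s y)) (p : ℂ) :
    D.Rat (fr (s - algebraMap ℂ K p) y) ∧ cz (s - algebraMap ℂ K p) y = cz s y := by
  obtain ⟨D, hD⟩ := Cb.fr_of h.ff h.ind
  have e : jac D (fr (s - algebraMap ℂ K p) y) = 1 := by
    rw [← Cb.jac_self hD, jac, jac]
    congr 1
    ext i j
    refine Fin.cases ?_ (fun j => ?_) j <;> simp [fr]
  have n : jac D (fr (s - algebraMap ℂ K p) y) ≠ 0 := e ▸ one_ne_zero
  refine ⟨⟨(Cb.jac_ne_iff hD _).1 n, fun x => IntermediateField.adjoin_le_iff.2 ?_ (h.gen x)⟩,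
    funext fun P => ?_⟩
  · rintro _ ⟨j, rfl⟩
    refine Fin.cases ?_ (fun j => ?_) j
    · have := add_mem (IntermediateField.subset_adjoin ℂ
        (range (fr (s - algebraMap ℂ K p) y)) ⟨0, rfl⟩) (IntermediateField.algebraMap_mem _ p)
      simpa [fr] using this
    · exact IntermediateField.subset_adjoin _ _ ⟨j.succ, rfl⟩
  · rw [cz, cz, Cb.kap_chg hD n, e, dv_one, add_zero]

theorem gp0 (h : D.Rat (fr s y)) (r : Option ℂ) (j : ℕ) (v : Fin ρ → ℤ) (hv : j ≠ 0 ∨ v ≠ 0) :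
    ∃ (Q : Pl K) (e : ℕ), 0 < e ∧ (∀ i, v i = e * Q.ord (y i)) ∧ (j : ℤ) = e * mu s Q r ∧
      cz s y Q + 1 ≤ sg r * mu s Q r := by
  have key : ∀ (s : K) (k : ℤ), D.Rat (fr s y) → (k ≠ 0 ∨ v ≠ 0) →
      ∃ (Q : Pl K) (e : ℕ), 0 < e ∧ (∀ i, v i = e * Q.ord (y i)) ∧ k = e * Q.ord s ∧
        cz s y Q + 1 ≤ Q.ord s := fun s k h hv => by
    obtain ⟨Q, e, e0, a, b⟩ := mon' (ρ + 1) K (fr s y) (Fin.cons k v) h fun c =>
      hv.elim (fun z => z (by simpa using congrFun c 0)) fun z => z (funext fun j => by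
        simpa using congrFun c j.succ)
    refine ⟨Q, e, e0, fun j => by simpa [fr] using a j.succ, by simpa [fr] using a 0, ?_⟩
    rw [la_eq] at b
    have : ((cz s y Q + 1 : ℤ) : ℝ) ≤ Q.ord s := by
      push_cast
      linarith
    exact_mod_cast this
  cases r with
  | none =>
    obtain ⟨Q, e, e0, a, b, c⟩ := key s (-j) h (hv.imp_left fun z => by omega)
    exact ⟨Q, e, e0, a, by simp only [mu]; linarith, by simpa [sg, mu] using c⟩
  | some p =>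
    obtain ⟨Q, e, e0, a, b, c⟩ := key _ j (shift h p).1 (hv.imp_left fun z => by omega)
    rw [(shift h p).2] at c
    exact ⟨Q, e, e0, a, b, by simpa [sg, mu] using c⟩

end G68

open G68

/-- Gauss places with the weight `v` and the height `j` over the point `r` -/
theorem gp (fac : FAC ρ) (czr : CZ ρ) {K : Type} [Field K] [Algebra ℂ K] {s : K} {y : Fin ρ → K}
    (h : D.Rat (fr s y)) (r : Option ℂ) (j : ℕ) (v : Fin ρ → ℤ) (hv : j ≠ 0 ∨ v ≠ 0) :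
    ∃ (Q : Pl K) (e : ℕ), 0 < e ∧ (∀ n u, e * Q.ord (hm s y n u) = u ⬝ᵥ v + j * od n r) ∧
      e * (cz s y Q + 1) ≤ sg r * j := by
  obtain ⟨-, -, -, -, -, f6, f7⟩ := fac K s y h
  have e1 : ∀ (Q : Pl K) (e : ℕ), (∀ i, v i = e * Q.ord (y i)) → ∀ u : Fin ρ → ℤ,
      e * ∑ i, u i * Q.ord (y i) = u ⬝ᵥ v := fun Q e a u => by
    rw [dotProduct, Finset.mul_sum]
    exact Finset.sum_congr rfl fun i _ => by rw [a]; ring
  obtain rfl | j0 := eq_or_ne j 0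
  · obtain ⟨Q, e, e0, a, b, c⟩ := (czr K s y h).2.2.2 v (hv.resolve_left fun z => z rfl)
    refine ⟨Q, e, e0, fun n u => by rw [f7 Q n u b, e1 Q e a]; simp, ?_⟩
    simpa using mul_nonpos_of_nonneg_of_nonpos (Int.natCast_nonneg e) c
  · obtain ⟨Q, e, e0, a, b, c⟩ := gp0 h r j v hv
    have m : At s Q r := pos_of_mul_pos_left (a := mu s Q r) (b := e) (by rw [mul_comm, ← b]; omega)
      (Int.natCast_nonneg e)
    refine ⟨Q, e, e0, fun n u => by rw [f6 Q r n u m, mul_add, e1 Q e a, b]; ring, ?_⟩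
    rw [b, mul_left_comm]
    exact mul_le_mul_of_nonneg_left c (Int.natCast_nonneg e)

/-- the inequality at a Gauss place, for weights on the whole family -/
theorem hwg (fac : FAC ρ) (sums : SUMS ρ) (czr : CZ ρ) {K : Type} [Field K] [Algebra ℂ K]
    {ι : Type} {s : K} {y : Fin ρ → K} {w : ι → Prop} {P : ι → Pl K} (h : D.Rat (fr s y)) {ε : ℝ}
    (ε0 : 0 ≤ ε) {q : ℕ} {κ : ι → ℤ} {G : (Fin ρ → ℤ) →₀ K} (hG : Hg s y G) (g0 : tot G ≠ 0)
    (hw : Hw ε q s y w P (tot G) κ) (r : Option ℂ) (j : ℕ) (v : Fin ρ → ℤ) (hv : j ≠ 0 ∨ v ≠ 0)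
    (ξ : ι → ℝ) (ξ0 : 0 ≤ ξ) (hξ : ∀ E, ξ E ≠ 0 → w E ∧ ¬ Tv s y (P E))
    (e : ∀ n u, ∑ᶠ E, ξ E * (P E).ord (hm s y n u) = (u ⬝ᵥ v + j * od n r : ℤ)) :
    ∃ u, G u ≠ 0 ∧ ε * q ≤ q * (sg r * j) - ∑ᶠ E, ξ E * (P E).ord (G u) - ∑ᶠ E, ξ E * κ E := by
  obtain ⟨f1, -⟩ := fac K s y h
  obtain ⟨Q, m, m0, a, b⟩ := gp fac czr h r j v hv
  obtain ⟨u, hu, hu'⟩ := (sums K s y h).2.1 G Q g0
  have e1 : (1 : ℝ) ≤ m := by exact_mod_cast m0
  have e2 : (m : ℝ) ≠ 0 := by positivity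
  have sc : ∀ (c : ℝ) (F : ι → ℤ), ∑ᶠ E, c * ξ E * F E = c * ∑ᶠ E, ξ E * F E := fun c F => by
    rw [mul_finsum]
    simp only [mul_assoc]
  have oa : ∀ u, ∀ x ∈ Hm s y u, x ≠ 0 → ∑ᶠ E, ξ E * (P E).ord x = m * Q.ord x := fun u x hx x0 => by
    obtain ⟨c, n, c0, rfl⟩ := f1 u x hx x0
    simp only [Pl.ord_smul _ c0]
    rw [e, ← a]
    push_cast
    rfl
  refine ⟨u, hu, ?_⟩
  have h1 := hw Q (fun E => (m : ℝ)⁻¹ * ξ E) (fun E => mul_nonneg (by positivity) (ξ0 E))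
    (fun E hE => hξ E (right_ne_zero_of_mul hE)) fun u x hx x0 => by
      rw [sc _ (fun E => (P E).ord x), oa u x hx x0, inv_mul_cancel_left₀ e2]
  rw [sc _ κ] at h1
  have h3 : (Q.ord (G u) : ℝ) ≤ Q.ord (tot G) := Int.cast_le.2 hu'
  have h4 : (m : ℝ) * (cz s y Q + 1) ≤ sg r * j := by exact_mod_cast b
  have h5 := mul_nonneg ε0 (Nat.cast_nonneg (α := ℝ) q)
  have h6 := mul_le_mul_of_nonneg_left h4 (Nat.cast_nonneg (α := ℝ) q)
  have h8 := mul_le_mul_of_nonneg_left h1 (zero_le_one.trans e1)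
  rw [mul_sub, mul_inv_cancel_left₀ e2] at h8
  rw [oa u _ (hG u) hu]
  nlinarith [mul_le_mul_of_nonneg_left h3 (zero_le_one.trans e1)]

end Vale.Agent.P283R.Wr
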