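import Vale.Agent.P283R.Wr.All
import Vale.Agent.P283R.Wr.Elp68
import Vale.Agent.P283R.C3.Top
import Vale.Agent.P283R.C3.On

/-!
# P283R, block WD, any rank: the cases of bounded generation
-/

open Set CategoryTheory AlgebraicGeometry

noncomputable section

namespace Vale.Agent.P283R.Wr

open Vale.Agent.P287D Vale.Agent.P283M Vale.Agent.P283R.To Vale.Agent.P297Z

variable {ρ : ℕ}

/-- **ELP**: every point has a vertex and `s` is not a quotient of regular functions -/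
def ELP (ρ : ℕ) : Prop := ∀ ε : ℝ, 0 < ε → ∃ N : ℕ, ∀ q : ℕ, 1 ≤ q →
  ForF (ρ := ρ) fun K _ _ ι s y w P => ∀ (g : K) (κ : ι → ℤ), g ≠ 0 →
    (∀ E, w E → Tv s y (P E) → 0 ≤ (P E).ord g) → {E | w E ∧ κ E ≠ 0}.Finite →
    (∀ E, w E → q * cz s y (P E) - (P E).ord g ≤ κ E) → Hw ε q s y w P g κ →
    (∀ r, ∃ E, w E ∧ At s (P E) r) →
    (∀ b : K, (∀ E, w E → 0 ≤ (P E).ord b) → (∀ E, w E → 0 ≤ (P E).ord (s * b)) → b = 0) →
    ∃ (Kp : Finset ℂ) (a : ℂ → Fin ρ → ℤ), Kp.card ≤ N ∧ ∀ E p, w E → p ∉ Kp →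
      At s (P E) (some p) → mu s (P E) (some p) = 1 ∧ ∀ j, (P E).ord (y j) = a p j

namespace T66

section

variable {K : Type} [Field K] [Algebra ℂ K] {ι : Type} {s : K} {y : Fin ρ → K} {w : ι → Prop}
  {P : ι → Pl K}

/-- the invariant representative -/
theorem rep (F : Fm s y w P) (q : ℕ) (c : ι → ℤ) (c0 : ∀ E, 0 ≤ c E) (cf : {E | c E ≠ 0}.Finite) :
    ∃ (g : K) (κ : ι → ℤ), g ≠ 0 ∧ (∀ E, κ E = q * cz s y (P E) + c E - (P E).ord g) ∧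
      (∀ E, w E → Tv s y (P E) → 0 ≤ (P E).ord g ∧ κ E = 0) ∧ {E | w E ∧ κ E ≠ 0}.Finite ∧
      ∀ E, q * cz s y (P E) - (P E).ord g ≤ κ E := by
  obtain ⟨g, g0, hg⟩ := F.eqn c cf
  refine ⟨g, _, g0, fun _ => rfl, fun E a b => ?_, ?_, fun E => ?_⟩
  · rw [hg E a b, F.kt E a b]
    exact ⟨c0 E, by ring⟩
  · refine ((F.finc.union (F.fin g)).union cf).subset fun E h => ?_
    by_contra z
    simp only [mem_union, mem_ofPred_eq, not_or, not_and, not_not] at z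
    exact h.2 (by rw [z.1.1 h.1, z.1.2 h.1, z.2]; ring)
  · linarith [c0 E]

/-- an invariant prime divisor is determined by its vertex -/
theorem unq (F : Fm s y w P) {E E' : ι} (a : w E) (a' : w E') {r : Option ℂ} (b : At s (P E) r)
    (b' : At s (P E') r) (m : mu s (P E) r = mu s (P E') r)
    (n : ∀ j, (P E).ord (y j) = (P E').ord (y j)) : P E = P E' := by
  classical
  obtain ⟨f1, -, -, -, f5, f6, -⟩ := fac20 K s y F.rat
  have s2 := (sums K s y F.rat).2.1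
  have k1 : ∀ u, ∀ x ∈ Hm s y u, x ≠ 0 → (P E).ord x = (P E').ord x := fun u x hx x0 => by
    obtain ⟨c, k, c0, rfl⟩ := f1 u x hx x0
    rw [Pl.ord_smul _ c0, Pl.ord_smul _ c0, f6 _ r k u b, f6 _ r k u b', m]
    simp only [n]
  have k2 : ∀ φ : K, φ ≠ 0 → (∀ D, w D → Tv s y (P D) → 0 ≤ (P D).ord φ) →
      (P E).ord φ = (P E').ord φ := fun φ φ0 h => by
    obtain ⟨G, hG, rfl⟩ := F.lau φ φ0 h
    obtain ⟨u, u0, hu⟩ := s2 G (P E) φ0
    obtain ⟨v, v0, hv⟩ := s2 G (P E') φ0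
    have := F.inv E a (f5 _ _ b) G hG v v0
    have := F.inv E' a' (f5 _ _ b') G hG u u0
    have := k1 u _ (hG u) u0
    have := k1 v _ (hG v) v0
    omega
  have k3 : ∀ φ : K, φ ≠ 0 → (P E).ord φ = (P E').ord φ := fun φ φ0 => by
    obtain ⟨ψ, ψ0, h⟩ := F.eqn (fun D => if w D then max 0 (-(P D).ord φ) else 0)
      ((F.fin φ).subset fun D hD => by
        by_cases c : w D
        · exact ⟨c, fun e => hD (by simp [e])⟩
        · exact (hD (if_neg c)).elim)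
    have e1 := k2 ψ ψ0 fun D c d => by rw [h D c d, if_pos c]; omega
    have e2 := k2 (ψ * φ) (mul_ne_zero ψ0 φ0) fun D c d => by
      rw [Pl.ord_mul _ ψ0 φ0, h D c d, if_pos c]; omega
    rw [Pl.ord_mul _ ψ0 φ0, Pl.ord_mul _ ψ0 φ0] at e2
    omega
  refine Pl.ext' (SetLike.ext fun φ => ?_)
  obtain rfl | φ0 := eq_or_ne φ 0
  · simp
  · rw [← P297Z.Pl.ord_nonneg_iff _ φ0, ← P297Z.Pl.ord_nonneg_iff _ φ0]
    exact k3 φ φ0 ▸ Iff.rfl

theorem cst (F : Fm s y w P) (inj : Function.Injective P) {Kp : Finset ℂ} {a : ℂ → Fin ρ → ℤ}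
    (d : ∀ E p, w E → p ∉ Kp → At s (P E) (some p) →
      mu s (P E) (some p) = 1 ∧ ∀ j, (P E).ord (y j) = a p j) (k : ι → ℤ) :
    ∃ b : ℂ → ℤ, ∀ E p, w E → p ∉ Kp → At s (P E) (some p) → k E = b p + (0 : ι →₀ ℤ) E * 0 := by
  classical
  refine ⟨fun p => if h : ∃ E, w E ∧ At s (P E) (some p) then k h.choose else 0,
    fun E p i j m => ?_⟩
  have h : ∃ E, w E ∧ At s (P E) (some p) := ⟨E, i, m⟩
  obtain ⟨i', m'⟩ := h.choose_spec
  have d1 := d E p i j m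
  have d2 := d _ p i' j m'
  simp only [dif_pos h, mul_zero, add_zero]
  exact congrArg k (inj (unq F i i' m m' (d1.1.trans d2.1.symm)
    fun j => (d1.2 j).trans (d2.2 j).symm))

theorem spk (F : Fm s y w P) {k : ℕ} {D : Fin k → ι →₀ ℤ} {Kp : Finset ℂ} {τ : ι →₀ ℤ}
    (sp : ∀ (κ : ι → ℤ) (c : ℤ) (b : ℂ → ℤ), {E | w E ∧ κ E ≠ 0}.Finite →
      (∀ E, w E → Tv s y (P E) → κ E = 0) →
      (∀ E p, w E → p ∉ Kp → At s (P E) (some p) → κ E = b p + τ E * c) →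
      ∃ (m : Fin k → ℤ) (φ : K), φ ≠ 0 ∧ ∀ E, w E → κ E = (P E).ord φ + ∑ i, m i * D i E)
    (h : ∀ k : ι → ℤ, ∃ b : ℂ → ℤ, ∀ E p, w E → p ∉ Kp → At s (P E) (some p) →
      k E = b p + τ E * 0) : ∃ (m : Fin k → ℤ) (φ : K), φ ≠ 0 ∧
      ∀ E, w E → cz s y (P E) = (P E).ord φ + ∑ i, m i * D i E :=
  let ⟨b, hb⟩ := h fun E => cz s y (P E)
  sp (fun E => cz s y (P E)) 0 b F.finc F.kt hb

end

open Sl Sl.Var Vale.Agent.P283R.Gl

variable {X Z : Sl.Var} {f : X.X ⟶ Z.X} {ω : X.Form (ρ + 1)} {B : X.QDiv} {z : Pt Z.X}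
  {V : Z.X.Opens} {s g H : X.K} {y : Fin ρ → X.K} {κ c : X.PrimeDiv → ℤ} {q : ℕ}

theorem fin_of (hV : IsAffineOpen V) (zV : z.In V)
    (F : Fm s y (fun E : X.o.PrimeDiv => E.1 ∈ f ⁻¹ᵁ V) pq) (H0 : H ≠ 0) (g0 : g ≠ 0)
    (eH : ∀ E, formOrd ω (RingEquiv.refl X.K) E = cz s y (pq (X := X.o) E) +
      (pq (X := X.o) E).ord H)
    (ec : ∀ E, q * B.coeff E = c E) (mn : ∀ r : ℕ, (∀ E, ∃ m : ℤ, r * B.coeff E = m) → q ∣ r)
    (eκ : ∀ E, κ E = q * cz s y (pq (X := X.o) E) + c E - (pq (X := X.o) E).ord g)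
    (κ0 : ∀ E : X.o.PrimeDiv, E.1 ∈ f ⁻¹ᵁ V → Tv s y (pq E) → κ E = 0)
    (κf : {E : X.o.PrimeDiv | E.1 ∈ f ⁻¹ᵁ V ∧ κ E ≠ 0}.Finite) {Kp : Finset ℂ}
    {a : ℂ → Fin ρ → ℤ} (d : ∀ (E : X.o.PrimeDiv) p, E.1 ∈ f ⁻¹ᵁ V → p ∉ Kp →
      At s (pq E) (some p) → mu s (pq E) (some p) = 1 ∧ ∀ j, (pq E).ord (y j) = a p j) :
    Generated (Kp.card + ρ + 4) f ω B z := by
  have cs := cst F H4.pq_inj d
  obtain ⟨n, N, D, le, gg, sp⟩ := gsr _ _ s y _ _ F Kp 0 0 a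
    ⟨fun _ => le_rfl, fun E p i j m => by simpa using d E p i j m, fun E h => (h rfl).elim,
      fun E p i _ m => ⟨E, i, m, rfl⟩⟩
  refine ⟨n, N, V, D, le, hV, zV, ?_, fun r hr => ?_, .inr ?_⟩
  · refine Eq.mp (congrArg _ (funext fun m => Set.ext fun φ => ?_)) gg
    refine forall_congr' fun _ => forall_congr' fun E => forall_congr' fun _ => ?_
    rw [← pq_ord]
    rfl
  · obtain ⟨r, rfl⟩ := mn r hr
    obtain ⟨b, hb⟩ := cs κ
    obtain ⟨m, φ, φ0, v⟩ := sp κ 0 b κf κ0 hb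
    have u0 : φ * g * H ^ q ≠ 0 := mul_ne_zero (mul_ne_zero φ0 g0) (pow_ne_zero _ H0)
    refine ⟨fun i => r * m i, (φ * g * H ^ q) ^ r, pow_ne_zero _ u0, fun E x => ?_⟩
    have k1 := v E x
    have k2 : ord ((φ * g * H ^ q) ^ r) E = r * ((pq (X := X.o) E).ord φ +
        (pq (X := X.o) E).ord g + q * (pq (X := X.o) E).ord H) := by
      refine (pq_ord (X := X.o) E _).trans ?_
      rw [← zpow_natCast, Pl.ord_zpow, Pl.ord_mul _ (mul_ne_zero φ0 g0) (pow_ne_zero _ H0),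
        Pl.ord_mul _ φ0 g0, ← zpow_natCast, Pl.ord_zpow]
    have k3 : comb D (fun i => r * m i) E = r * ∑ i, m i * D i E := by
      rw [Finset.mul_sum]
      exact Finset.sum_congr rfl fun i _ => mul_assoc _ _ _
    have k4 : r * (q * formOrd ω (RingEquiv.refl X.K) E + c E) =
        ord ((φ * g * H ^ q) ^ r) E + comb D (fun i => r * m i) E := by
      rw [k2, k3, eH]
      linear_combination r * k1 - r * eκ E
    rw [← k4]
    simp only [logCan]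
    push_cast
    rw [← ec]
    ring
  · obtain ⟨m, φ, φ0, v⟩ := spk F sp cs
    refine ⟨m, φ * H, mul_ne_zero φ0 H0, fun E x => ?_⟩
    have k1 := v E x
    have k2 : ord (φ * H) E = (pq (X := X.o) E).ord φ + (pq (X := X.o) E).ord H :=
      (pq_ord (X := X.o) E _).trans (Pl.ord_mul _ φ0 H0)
    have k4 : formOrd ω (RingEquiv.refl X.K) E = ord (φ * H) E + comb D m E := by
      rw [k2, eH, show comb D m E = ∑ i, m i * D i E from rfl]
      linear_combination k1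
    rw [← k4]
    exact add_zero _

theorem form_eq (a : dimension X.str = (ρ + 1 : ℕ)) (b : ω.Nonzero) (r : D.Rat (fr s y)) :
    ∃ H : X.K, H ≠ 0 ∧ ∀ E, formOrd ω (RingEquiv.refl X.K) E = cz s y (pq (X := X.o) E) +
      (pq (X := X.o) E).ord H := by
  obtain ⟨j, j0, fm⟩ := P283M.Br.frm X.o _ (P283M.Br.ffd X.o _ a) ω b
  obtain ⟨h, h0, e⟩ := (cz_row _ s y r).2.2.1
  refine ⟨h * j, mul_ne_zero h0 j0, fun E => ?_⟩
  have := fm X.o (RingEquiv.refl _) E _ (pq_is (X := X.o) E) fun g => pq_ord (X := X.o) E g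
  have k := this.trans (congrArg (· + _) (e _))
  rw [Pl.ord_mul _ h0 j0, ← add_assoc]
  exact Int.cast_injective (α := ℝ) (k.trans (by push_cast; rfl))

theorem coY (a : Independent (Fin.cons s y : Fin (ρ + 1) → X.K))
    (b : ∀ x : Pt X.X, x.In (pre f V) → ∃ U ≤ pre f V, IsAffineOpen U ∧ x.In U ∧
      GradedBy s y (regOn U)) : CoY (X := X.o) (f ⁻¹ᵁ V) s y := by
  refine ⟨a, fun x hx => ?_⟩
  obtain ⟨U, c, d, e, k⟩ := b x hx
  refine ⟨U, c, d, e, fun g hg => Submodule.span_mono ?_ (k g hg)⟩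
  rintro _ ⟨i, φ, j, m, l⟩
  exact ⟨i, m, φ, j, l⟩

theorem den (p : ∀ E, 0 ≤ B.coeff E) (i : ∃ q : ℕ, 1 ≤ q ∧ ∀ E, ∃ m : ℤ, q * B.coeff E = m) :
    ∃ (r : ℕ) (c : X.PrimeDiv → ℤ), 1 ≤ r ∧ (∀ E, r * B.coeff E = c E) ∧
      (∀ k : ℕ, (∀ E, ∃ m : ℤ, k * B.coeff E = m) → r ∣ k) ∧ (∀ E, 0 ≤ c E) ∧
      {E | c E ≠ 0}.Finite := by
  obtain ⟨q, hq, i⟩ := i
  obtain ⟨r, hr, mn⟩ := least B
  choose c hc using hr
  refine ⟨r, c, Nat.pos_of_dvd_of_pos (mn q i) hq, hc, mn, fun E => ?_,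
    B.support.finite_toSet.subset fun E e => Finsupp.mem_support_iff.2 fun x => e ?_⟩
  · have := mul_nonneg (Nat.cast_nonneg (α := ℚ) r) (p E)
    rw [hc] at this
    exact_mod_cast this
  · have := hc E
    rw [show B.coeff E = 0 from x, mul_zero] at this
    exact_mod_cast this.symm

end T66

open Sl Sl.Var Vale.Agent.P283R.Gl T66

variable {X Z : Sl.Var} {f : X.X ⟶ Z.X} {ω : X.Form (ρ + 1)} {B : X.QDiv} {z : Pt Z.X}
  {V : Z.X.Opens} {s : X.K} {y : Fin ρ → X.K}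

/-- **a point of the projective line is missing**: bounded generation -/
theorem mem_miss (a : dimension X.str = (ρ + 1 : ℕ)) (b : ω.Nonzero) (p : ∀ E, 0 ≤ B.coeff E)
    (i : ∃ q : ℕ, 1 ≤ q ∧ ∀ E, ∃ m : ℤ, q * B.coeff E = m) (t : Contraction f) (zc : z.Closed)
    (hV : IsAffineOpen V) (zV : z.In V) (co : CoY (X := X.o) (f ⁻¹ᵁ V) s y)
    (el : ¬ ∀ r, ∃ E : X.o.PrimeDiv, E.1 ∈ f ⁻¹ᵁ V ∧ At s (pq E) r) :
    Generated (ρ + 5) f ω B z := by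
  obtain ⟨r, c, -, hc, mn, c0, cf⟩ := den p i
  obtain ⟨x, hx⟩ := t.2.2.1.surj z
  have xV : ∀ V : Z.X.Opens, z.In V → x ∈ f ⁻¹ᵁ V := fun V h => show f x ∈ V from hx ▸ h
  obtain ⟨r', el⟩ := not_forall.1 el
  obtain ⟨s, co, s0⟩ := mob27 X.o _ s y x co (xV V zV) r' el
  have F := fm X.o _ s y x co (xV V zV)
  obtain ⟨g, κ, g0, e1, e2, e3, -⟩ := rep F r c c0 cf
  obtain ⟨H, H0, eH⟩ := form_eq a b F.rat
  obtain ⟨V', p₀, l, hV', zV', co', o⟩ := shr8 X.o Z.o f V z s y _ t zc hV zV co s0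
    (F.finc.union (Set.finite_iUnion fun j => F.fin (y j)))
  have F' := fm X.o _ s y x co' (xV V' zV')
  have l' : ∀ E : X.o.PrimeDiv, E.1 ∈ f ⁻¹ᵁ V' → E.1 ∈ f ⁻¹ᵁ V := fun E h => l h
  refine (fin_of (Kp := {p₀}) (a := 0) hV' zV' F' H0 g0 eH hc mn e1
    (fun E i j => (e2 E (l' E i) j).2) (e3.subset fun E h => ⟨l' E h.1, h.2⟩)
    fun E p i j m => ?_).elim fun k ⟨N', V', D, l', o⟩ => ⟨k, N', V', D, by
      rw [Finset.card_singleton] at l'; omega, o⟩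
  have := fun h => o E h i p (Finset.notMem_singleton.1 j) m
  simp only [mem_union, mem_iUnion, mem_ofPred_eq, not_or, not_exists, not_not, l' E i, true_and,
    imp_false] at this
  refine ⟨?_, this.2⟩
  have k1 := (cz_row _ s y F.rat).1 (pq E) p
  have k2 : 0 < mu s (pq E) (some p) := m
  rw [this.1] at k1
  omega

/-- **`s` is not a function on the base**: bounded generation -/
theorem mem_pos (L : ELP ρ) {ε : ℝ} (hε : 0 < ε) : ∃ l : ℕ, ∀ (X Z : Sl.Var) (f : X.X ⟶ Z.X)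
    (ω : X.Form (ρ + 1)) (B : X.QDiv) (z : Pt Z.X) (V : Z.X.Opens) (s : X.K) (y : Fin ρ → X.K),
    dimension X.str = (ρ + 1 : ℕ) → ω.Nonzero → Pair (ε ≤ ·) (all X.X) ω B →
    (∃ q : ℕ, 1 ≤ q ∧ ∀ E, ∃ m : ℤ, q * B.coeff E = m) → Contraction f → FanoType f ω →
    NefOver f (-logCan ω B) → z.Closed → IsAffineOpen V → z.In V →
    CoY (X := X.o) (f ⁻¹ᵁ V) s y → (s ∈ regOn (pre f V) ∨
      ∀ b ∈ regOn (pre f V), s * b ∈ regOn (pre f V) → b = 0) → Generated l f ω B z := by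
  obtain ⟨N, hN⟩ := L ε hε
  refine ⟨N + ρ + 5, fun X Z f ω B z V s y a b p i t u n zc hV zV co h => ?_⟩
  by_cases el : ∀ r, ∃ E : X.o.PrimeDiv, E.1 ∈ f ⁻¹ᵁ V ∧ At s (pq E) r
  swap
  · exact (mem_miss a b (fun E => p.1 E trivial) i t zc hV zV co el).elim
      fun k ⟨N', V', D, l', o⟩ => ⟨k, N', V', D, by omega, o⟩
  obtain ⟨r, c, r1, hc, mn, c0, cf⟩ := den (fun E => p.1 E trivial) i
  obtain ⟨x, hx⟩ := t.2.2.1.surj z
  have F := fm X.o _ s y x co (show f x ∈ V from hx ▸ zV)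
  obtain ⟨g, κ, g0, e1, e2, e3, e4⟩ := rep F r c c0 cf
  obtain ⟨H, H0, eH⟩ := form_eq a b F.rat
  have rg : ∀ φ : X.K, (∀ E : X.o.PrimeDiv, E.1 ∈ f ⁻¹ᵁ V → 0 ≤ (pq E).ord φ) →
      φ ∈ regOn (pre f V) := fun φ h x hx => P283M.Br.har X.o _ x fun E hE =>
    pq_ord E φ ▸ h E (hE.mem_open (f ⁻¹ᵁ V).isOpen hx)
  rcases h with h | h
  · obtain ⟨E, i, j⟩ := el none
    have k : 0 < -(pq E).ord s := j
    have s0 : s ≠ 0 := fun e => by simp [e] at k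
    have := (P297Z.Pl.ord_nonneg_iff (pq E).toPlace s0).2 ((pq_is E).dom _ (h E.1 i)).1
    exact absurd this (by omega)
  obtain ⟨Kp, v, l, d⟩ := hN r r1 _ _ s y _ _ F g κ g0 (fun E i j => (e2 E i j).1) e3
    (fun E _ => e4 E)
    (hws X.o Z.o f ω B z ε r V s g y κ (P283M.Br.ffd X.o _ a) b ((pair_iff _ _ ω B).1 p) t
      ((fanoType_iff f ω).1 u) ((nefOver_iff f _).1 n) zc hV zV r1 F g0
      (fun E _ => by rw [e1]; push_cast; rw [← hc E]; rfl) fun E i j => (e2 E i j).2) el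
    fun φ i j => h φ (rg φ i) (rg _ j)
  exact (fin_of hV zV F H0 g0 eH hc mn e1 (fun E i j => (e2 E i j).2) e3 d).elim
    fun k ⟨N', V', D, l', o⟩ => ⟨k, N', V', D, by omega, o⟩

/-- bounded klt complements -/
theorem on_pos (L : ∀ ρ, ELP ρ) : On fun d X Z f ω B z => FanoType f ω ∧
    NefOver f (-logCan ω B) ∧ ∃ (V : Z.X.Opens) (s : X.K) (y : Fin (d - 1) → X.K),
      IsAffineOpen V ∧ z.In V ∧ Independent (Fin.cons s y : Fin (d - 1 + 1) → X.K) ∧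
      (∀ x : Pt X.X, x.In (pre f V) → ∃ U ≤ pre f V, IsAffineOpen U ∧ x.In U ∧
        GradedBy s y (regOn U)) ∧ (s ∈ regOn (pre f V) ∨
      ∀ b ∈ regOn (pre f V), s * b ∈ regOn (pre f V) → b = 0) := by
  intro d hd ε hε R hR
  obtain ⟨ρ, rfl⟩ : ∃ ρ, d = ρ + 1 := ⟨d - 1, by omega⟩
  obtain ⟨l, H⟩ := mem_pos (L ρ) hε
  obtain ⟨n, n1, G⟩ := on_gen' l _ hd ε hε R hR
  refine ⟨n, n1, fun X Z f ω B z a b c e s t ⟨u1, u2, V, s', y, i, j, k, m, o⟩ => ?_⟩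
  exact G X Z f ω B z a b c e s t ⟨u1, u2, H X Z f ω B z V s' y a b c
    ⟨_, Finset.one_le_prod' fun r _ => r.den_pos, C3.den e⟩ s u1 u2 t i j (coY k m) o⟩

/-- **bounded klt complements in complexity one, any dimension, any boundary**, if the invariant
function `s` is regular or is not a function on the base -/
theorem on_c66 : On fun d X Z f ω B z => FanoType f ω ∧
    NefOver f (-logCan ω B) ∧ ∃ (V : Z.X.Opens) (s : X.K) (y : Fin (d - 1) → X.K),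
      IsAffineOpen V ∧ z.In V ∧ Independent (Fin.cons s y : Fin (d - 1 + 1) → X.K) ∧
      (∀ x : Pt X.X, x.In (pre f V) → ∃ U ≤ pre f V, IsAffineOpen U ∧ x.In U ∧
        GradedBy s y (regOn U)) ∧ (s ∈ regOn (pre f V) ∨
      ∀ b ∈ regOn (pre f V), s * b ∈ regOn (pre f V) → b = 0) :=
  on_pos fun ρ _ h => elp ρ h

end Vale.Agent.P283R.Wr
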